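import Mathlib
import Vale.Agent.P252.Graph

/-!
For every n ≥ 10 the affine Bernstein statement is false, already for smooth entire graphs.
-/

namespace Vale.Agent.Results.P252.EntireCounterexample

open scoped ContDiff
open Vale.Agent.P252

/-- For every n ≥ 10 there is a smooth function on all of ℝⁿ with positive definite Hessian which
solves the affine maximal equation and is not a quadratic polynomial. -/
theorem result :
    ∀ n : ℕ, 10 ≤ n → ∃ u : EuclideanSpace ℝ (Fin n) → ℝ,
      ContDiff ℝ ∞ u ∧
      (∀ z, (hess u z).PosDef) ∧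
      (∀ z, ∑ i, ∑ j, ((hess u z).det * (hess u z)⁻¹ i j) * hess (affW u) z i j = 0) ∧
      ¬ ∃ (A : Matrix (Fin n) (Fin n) ℝ) (b : Fin n → ℝ) (c : ℝ),
        ∀ z, u z = ∑ i, ∑ j, A i j * z i * z j + ∑ i, b i * z i + c := by
  intro n hn
  obtain ⟨m, rfl⟩ : ∃ m, n = m + 1 + 1 := ⟨n - 2, by omega⟩
  obtain ⟨G, H, hprof⟩ := exists_profile m (by omega)
  refine ⟨graphFun G,
    graphFun_contDiff (fun s hs => (hprof s hs).1) (fun s hs => (hprof s hs).2.2.1),
    fun z => (graph_solves hprof z).1, fun z => (graph_solves hprof z).2,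
    graphFun_not_quadratic (hprof 0 le_rfl).2.2.1⟩

end Vale.Agent.Results.P252.EntireCounterexample
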